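import Crest.Agent.N255.Pt.Dt
import Crest.Agent.N255.Ce.Defs

/-!
# Row 255 (helper38): the mirror model of the finite data
-/

set_option autoImplicit false

noncomputable section

namespace Crest.Agent.N255.Pt

open FreeGroup

variable {ι I Tor K : Type}

/-- the copy at `v` as an embedding -/
def cpE (v : FreeGroup ι) : V ι I Tor ↪ St ι I Tor := ⟨cp v, cp_injective v⟩

/-- the wall of the edge `(v, i)` as an embedding -/
def wlE (v : FreeGroup ι) (i : ι) : Tor ↪ St ι I Tor := ⟨wl v i, wl_injective v i⟩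

/-- the wall of `C` in direction `j` as an embedding -/
def inW (j : ι × Bool) : Tor ↪ V ι I Tor := ⟨fun t => .inr (j, t), fun _ _ h => by simpa using h⟩

@[simp] theorem cpE_apply (v : FreeGroup ι) (a : V ι I Tor) : cpE v a = cp v a := rfl
@[simp] theorem wlE_apply (v : FreeGroup ι) (i : ι) (t : Tor) : (wlE v i t : St ι I Tor) = wl v i t := rfl
@[simp] theorem inW_apply (j : ι × Bool) (t : Tor) : (inW j t : V ι I Tor) = .inr (j, t) := rfl

theorem inW_trans (v : FreeGroup ι) (j : ι × Bool) :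
    (inW j).trans (cpE v : V ι I Tor ↪ _) = wlE (og v j) j.1 := rfl

/-- the tree rooted at the vertex `r` -/
def rt [DecidableEq ι] (r : FreeGroup ι) : Ce.Rt (src (ι := ι)) tgt where
  o := ⟨r, none⟩
  ht := ht r
  up := up r
  dn := dn r
  ht_o := ht_root r
  ud := ends r
  lt := ht_lt r
  par t h := (up_sur r t h).imp fun _ he => ⟨he, fun _ he' => up_injective r (he'.trans he.symm)⟩

/-- the action of the free group on the cover -/
def Dt.ρ (D : Dt ι I Tor K) : FreeGroup ι →* (D.Gt ≃g D.Gt) :=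
  MonoidHom.mk' (fun g => ⟨MulAction.toPerm g, D.adj_smul g _ _⟩) fun g h =>
    RelIso.ext fun s => mul_smul g h s

@[simp] theorem Dt.ρ_apply (D : Dt ι I Tor K) (g : FreeGroup ι) (s : St ι I Tor) : D.ρ g s = g • s := rfl

variable [Fintype ι] [Fintype I] [Fintype Tor]

/-- the vertices over a node -/
def sp : Nd ι → Finset (St ι I Tor)
  | ⟨v, none⟩ => Finset.univ.map (cpE v)
  | ⟨v, some i⟩ => Finset.univ.map (wlE v i)

theorem mem_sp {s : St ι I Tor} {n : Nd ι} : s ∈ sp n ↔ s ∈ supN n := by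
  obtain ⟨v, _ | i⟩ := n <;> simp [sp, supN]

theorem coe_sp (n : Nd ι) : ((sp n : Finset (St ι I Tor)) : Set (St ι I Tor)) = supN n :=
  Set.ext fun _ => mem_sp

theorem sp_none (v : FreeGroup ι) :
    (sp ⟨v, none⟩ : Finset (St ι I Tor)) = Finset.univ.map (cpE v) := rfl



theorem sp_tgt (e : Ed ι) :
    (sp (tgt e) : Finset (St ι I Tor)) = Finset.univ.map (wlE (og e.v e.k) e.k.1) := rfl

theorem sp_tgt_subset (e : Ed ι) : (sp (tgt e) : Finset (St ι I Tor)) ⊆ sp (src e) := fun _ h =>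
  mem_sp.2 (supE_src e (mem_sp.1 h))

variable [DecidableEq ι] [DecidableEq I] [DecidableEq Tor]

namespace Dt

variable (D : Dt ι I Tor K)

/-- **the mirror model** -/
def mir : Ce.Mir (St ι I Tor) K (FreeGroup ι) (Nd ι) (Ed ι) where
  Γ := D.Gt
  col := D.cl
  col_ne _ _ := D.cl_ne
  ρ := D.ρ
  col_ρ _ _ := rfl
  src := src
  tgt := tgt
  src_smul := src_smul
  tgt_smul := tgt_smul
  ty n := n.k ≠ none
  ty_smul _ _ := Iff.rfl
  ty_src _ h := h rfl
  ty_tgt _ := Option.some_ne_none _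
  free := L.free
  finN := L.fin
  finE := L.fin
  sp := sp
  sp_smul f n := by
    ext s
    obtain ⟨s, rfl⟩ := MulAction.surjective f s
    rw [mem_sp, smul_mem_supN_iff, ← mem_sp]
    exact ((D.ρ f).injective.mem_finset_image).symm
  root τ h := by
    obtain ⟨r, hr⟩ := D.helly h
    refine ⟨rt r, fun s hs => ⟨mem_sp.2 (hr hs), fun e he => ?_⟩⟩
    have := cvx r e (hr hs) (mem_sp.1 he)
    rcases ends r e with a | a <;> refine mem_sp.2 (a.2.symm ▸ ?_ : s ∈ supN (dn r e))
    · exact this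
    · exact supE_src e this
  dimN _ _ h _ := D.card_le_four h
  dimE e _ h _ a := D.card_le_three h (v := og e.v e.k) (i := e.k.1) fun _ hs => mem_sp.1 (a hs)

@[simp] theorem mir_Γ : D.mir.Γ = D.Gt := rfl
@[simp] theorem mir_col : D.mir.col = D.cl := rfl
@[simp] theorem mir_ρ : D.mir.ρ = D.ρ := rfl
@[simp] theorem mir_src : D.mir.src = src := rfl
@[simp] theorem mir_tgt : D.mir.tgt = tgt := rfl
@[simp] theorem mir_sp : D.mir.sp = sp := rfl



end Dt

end Crest.Agent.N255.Pt
end
private theorem rz_d3417d14c6 : type_of% @_root_.Crest.Agent.N255.Pt.sp.eq_1 := @_root_.Crest.Agent.N255.Pt.sp.eq_1 -- L55
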